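import Vale.Agent.P065.PointSet

/-!
# P065: `k`-sets and `e_k(n)` (support definitions, not a hand-in file)
-/

namespace Vale.Agent.P065

open Finset

/-- `S` is a `k`-set of `P`: a `k`-element subset of `P` that some line strictly separates from
`P \ S` (the line `a x + b y = c` has `S` in one of its open half-planes and `P \ S` in the
other one). -/
def IsKSet (P : Finset (ℝ × ℝ)) (k : ℕ) (S : Finset (ℝ × ℝ)) : Prop :=
  S ⊆ P ∧ S.card = k ∧ ∃ a b c : ℝ, (a ≠ 0 ∨ b ≠ 0) ∧
    (∀ z ∈ S, a * z.1 + b * z.2 < c) ∧ ∀ z ∈ P, z ∉ S → c < a * z.1 + b * z.2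

/-- the number of `k`-sets of `P` -/
noncomputable def kSetNumber (P : Finset (ℝ × ℝ)) (k : ℕ) : ℕ :=
  open Classical in
  {S ∈ P.powerset | IsKSet P k S}.card

/-- `e_k(n)`: the maximum number of `k`-sets over all `n`-point sets with no three collinear. -/
noncomputable def emax (k n : ℕ) : ℕ :=
  sSup {m | ∃ P : Finset (ℝ × ℝ), P.card = n ∧ GenPos P ∧ kSetNumber P k = m}

theorem bddAbove_emax (k n : ℕ) :
    BddAbove {m | ∃ P : Finset (ℝ × ℝ), P.card = n ∧ GenPos P ∧ kSetNumber P k = m} := by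
  classical
  refine ⟨2 ^ n, ?_⟩
  rintro m ⟨P, hP, -, rfl⟩
  unfold kSetNumber
  refine (card_filter_le _ _).trans ?_
  rw [card_powerset, hP]

theorem kSetNumber_le_emax {P : Finset (ℝ × ℝ)} {k n : ℕ} (hP : P.card = n) (hg : GenPos P) :
    kSetNumber P k ≤ emax k n :=
  le_csSup (bddAbove_emax k n) ⟨P, hP, hg, rfl⟩

end Vale.Agent.P065
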