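import Vale.Agent.P065.MathlibUsed

/-!
# P065: point sets in the plane, halving lines, `h(n)`
(support definitions, not a hand-in file)
-/

namespace Vale.Agent.P065

open Finset

/-- No three points of `P` lie on a common line. -/
def GenPos (P : Finset (ℝ × ℝ)) : Prop :=
  ∀ a ∈ P, ∀ b ∈ P, ∀ c ∈ P, a ≠ b → a ≠ c → b ≠ c →
    ¬ Collinear ℝ ({a, b, c} : Set (ℝ × ℝ))

/-- The orientation determinant: positive iff `c` lies strictly to the left of the line
through `a` and `b` directed from `a` to `b`, negative iff it lies strictly to the right. -/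
def orient (a b c : ℝ × ℝ) : ℝ :=
  (b.1 - a.1) * (c.2 - a.2) - (b.2 - a.2) * (c.1 - a.1)

/-- The line through the two distinct points `a, b` is a halving line of `P`: each of its
two open half-planes contains exactly `(|P| - 2) / 2` points of `P` (in particular `|P|` is
even). -/
def IsHalving (P : Finset (ℝ × ℝ)) (a b : ℝ × ℝ) : Prop :=
  a ≠ b ∧
  2 * {c ∈ P | 0 < orient a b c}.card + 2 = P.card ∧
  2 * {c ∈ P | orient a b c < 0}.card + 2 = P.card

/-- `h(P)`: the number of unordered pairs `{a, b}` of points of `P` spanning a halving line. -/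
noncomputable def halvingNumber (P : Finset (ℝ × ℝ)) : ℕ :=
  open Classical in
  {e ∈ P.powersetCard 2 | ∃ a b, e = {a, b} ∧ IsHalving P a b}.card

/-- `h(n)`: the maximum of `h(P)` over all `n`-point sets with no three collinear. -/
noncomputable def hmax (n : ℕ) : ℕ :=
  sSup {m | ∃ P : Finset (ℝ × ℝ), P.card = n ∧ GenPos P ∧ halvingNumber P = m}

theorem bddAbove_hmax (n : ℕ) :
    BddAbove {m | ∃ P : Finset (ℝ × ℝ), P.card = n ∧ GenPos P ∧ halvingNumber P = m} := by
  classical
  refine ⟨n.choose 2, ?_⟩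
  rintro m ⟨P, hP, -, rfl⟩
  unfold halvingNumber
  refine (card_filter_le _ _).trans ?_
  rw [card_powersetCard, hP]

theorem halvingNumber_le_hmax {P : Finset (ℝ × ℝ)} {n : ℕ} (hP : P.card = n) (hg : GenPos P) :
    halvingNumber P ≤ hmax n :=
  le_csSup (bddAbove_hmax n) ⟨P, hP, hg, rfl⟩

end Vale.Agent.P065
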